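import Vale.Agent.P269.Pub.T7
import Vale.Agent.P269.Asm.Fin
import Vale.Agent.P269.Hdx.Fin

namespace Vale.Agent.Results.P269.Virasoro

open Vale.Agent.P269 MvPolynomial

/-- The Virasoro conjecture for smooth complete intersections in projective space. -/
theorem result (N r : ℕ) (d : Fin r → ℕ) (F : Fin r → MvPolynomial (Fin (N + 1)) ℂ)
    (hF : ∀ k, (F k).IsHomogeneous (d k))
    (hs : ∀ x ∈ Pub.cone F, LinearIndependent ℂ fun k j => eval x (pderiv j (F k)))
    (hc : ConnectedSpace (Pub.Var F)) : Pub.Conj F (N - r) :=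
  Tf.conj_of St.main St.well St.pres St.hdgEx N r d F hF hs hc

end Vale.Agent.Results.P269.Virasoro
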