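import Vale.Agent.P269.Pc.Fin

namespace Vale.Agent.Results.P269.VirasoroCI

open Vale.Agent.P269 Pc MvPolynomial

/-- The Virasoro conjecture for smooth complete intersections in projective space, with checks of
the definition of the invariants in positive degree. -/
theorem result (N r : ℕ) (d : Fin r → ℕ) (F : Fin r → MvPolynomial (Fin (N + 1)) ℂ)
    (hF : ∀ k, (F k).IsHomogeneous (d k))
    (hs : ∀ x ∈ c2 F, LinearIndependent ℂ fun k j => eval x (pderiv j (F k)))
    (hc : ConnectedSpace (c6 F)) : c102 F d (N - r) :=
  fin N r d F hF hs hc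

end Vale.Agent.Results.P269.VirasoroCI
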